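import Mathlib

set_option autoImplicit false

/-! General lemmas on locally nilpotent derivations and the rigidity lemma for
`G = p q Θ + r` (row 268, S0408, helper30's proof part (1)). -/

namespace Crest.Agent.SC

open Polynomial

section General

variable {A : Type*} [CommRing A] [Algebra ℂ A]

/-- locally nilpotent derivation -/
def LN (D : Derivation ℂ A A) : Prop := ∀ a : A, ∃ n : ℕ, D^[n] a = 0

theorem iter_mul (D : Derivation ℂ A A) : ∀ N n m : ℕ, n + m = N → ∀ a b : A,
    D^[n + 1] a = 0 → D^[m + 1] b = 0 →
    D^[n + m + 1] (a * b) = 0 ∧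
      D^[n + m] (a * b) = ((n + m).choose n : A) * (D^[n] a * D^[m] b) := by
  intro N
  induction N with
  | zero =>
    intro n m h a b ha hb
    obtain rfl : n = 0 := by omega
    obtain rfl : m = 0 := by omega
    simp only [zero_add, Function.iterate_one] at ha hb
    constructor
    · simp [Derivation.leibniz, ha, hb]
    · simp
  | succ N ih =>
    intro n m h a b ha hb
    have hadd : ∀ k : ℕ, D^[k + 1] (a * b) = D^[k] (a * D b) + D^[k] (D a * b) := by
      intro k
      rw [Function.iterate_succ_apply, Derivation.leibniz, smul_eq_mul, smul_eq_mul, mul_comm b]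
      exact iterate_map_add D k _ _
    have hzero : ∀ k : ℕ, D^[k] (0 : A) = 0 := fun k => iterate_map_zero D k
    rcases n with _ | n
    · rcases m with _ | m
      · omega
      · simp only [zero_add, Function.iterate_one] at ha
        have h1 := ih 0 m (by omega) a (D b) (by simpa using ha)
          (by rw [← Function.iterate_succ_apply]; exact hb)
        constructor
        · have : 0 + (m + 1) + 1 = (0 + m + 1) + 1 := by omega
          rw [this, hadd, h1.1, ha, zero_mul, hzero, add_zero]
        · have : 0 + (m + 1) = (0 + m) + 1 := by omega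
          rw [this, hadd, h1.2, ha, zero_mul, hzero, add_zero]
          simp [Function.iterate_succ_apply]
    · rcases m with _ | m
      · simp only [zero_add, Function.iterate_one] at hb
        have h1 := ih n 0 (by omega) (D a) b
          (by rw [← Function.iterate_succ_apply]; exact ha) (by simpa using hb)
        constructor
        · have : n + 1 + 0 + 1 = (n + 0 + 1) + 1 := by omega
          rw [this, hadd, h1.1, hb, mul_zero, hzero, add_zero]
        · have h12 := h1.2
          simp only [Nat.add_zero] at h12
          have : n + 1 + 0 = n + 1 := by omega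
          rw [this, hadd, h12, hb, mul_zero, hzero, zero_add]
          simp [Function.iterate_succ_apply]
      · have h1 := ih (n + 1) m (by omega) a (D b) ha
          (by rw [← Function.iterate_succ_apply]; exact hb)
        have h2 := ih n (m + 1) (by omega) (D a) b
          (by rw [← Function.iterate_succ_apply]; exact ha) hb
        have e1 : n + (m + 1) = n + 1 + m := by omega
        rw [e1] at h2
        constructor
        · have : n + 1 + (m + 1) + 1 = (n + 1 + m + 1) + 1 := by omega
          rw [this, hadd, h1.1, h2.1, add_zero]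
        · have : n + 1 + (m + 1) = (n + 1 + m) + 1 := by omega
          rw [this, hadd, h1.2, h2.2, Nat.choose_succ_succ, Nat.cast_add]
          simp only [← Function.iterate_succ_apply]
          ring

variable [IsDomain A]

theorem exists_deg (D : Derivation ℂ A A) (hD : LN D) (a : A) (ha : a ≠ 0) :
    ∃ n : ℕ, D^[n + 1] a = 0 ∧ D^[n] a ≠ 0 := by
  classical
  have h := hD a
  have h0 : Nat.find h ≠ 0 := by
    intro h0
    have := Nat.find_spec h
    rw [h0] at this
    exact ha (by simpa using this)
  obtain ⟨n, hn⟩ := Nat.exists_eq_succ_of_ne_zero h0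
  refine ⟨n, ?_, ?_⟩
  · have := Nat.find_spec h
    rw [hn] at this
    exact this
  · intro h1
    have := Nat.find_min' h h1
    omega

theorem iter_zero_of_le (D : Derivation ℂ A A) {n m : ℕ} (h : n ≤ m) {a : A}
    (ha : D^[n] a = 0) : D^[m] a = 0 := by
  obtain ⟨k, rfl⟩ := Nat.exists_eq_add_of_le h
  rw [add_comm, Function.iterate_add_apply, ha]
  exact iterate_map_zero D k

theorem iter_mul_ne (D : Derivation ℂ A A) {n m : ℕ} {a b : A}
    (ha : D^[n + 1] a = 0) (ha' : D^[n] a ≠ 0) (hb : D^[m + 1] b = 0) (hb' : D^[m] b ≠ 0) :
    D^[n + m] (a * b) ≠ 0 := by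
  have : CharZero A := charZero_of_injective_algebraMap (algebraMap ℂ A).injective
  rw [(iter_mul D (n + m) n m rfl a b ha hb).2]
  refine mul_ne_zero ?_ (mul_ne_zero ha' hb')
  exact_mod_cast (Nat.choose_pos (Nat.le_add_right n m)).ne'

/-- kernels of locally nilpotent derivations are factorially closed. -/
theorem fact_closed (D : Derivation ℂ A A) (hD : LN D) {a b : A} (hab : a * b ≠ 0)
    (h : D (a * b) = 0) : D a = 0 := by
  obtain ⟨n, hn, hn'⟩ := exists_deg D hD a (left_ne_zero_of_mul hab)
  obtain ⟨m, hm, hm'⟩ := exists_deg D hD b (right_ne_zero_of_mul hab)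
  have h1 := iter_mul_ne D hn hn' hm hm'
  have h2 : n + m = 0 := by
    by_contra hne
    obtain ⟨k, hk⟩ := Nat.exists_eq_succ_of_ne_zero hne
    apply h1
    rw [hk, Function.iterate_succ_apply, h]
    exact iterate_map_zero D k
  have : n = 0 := by omega
  subst this
  simpa using hn

/-- `D g ∈ (g)` implies `D g = 0`. -/
theorem eigen (D : Derivation ℂ A A) (hD : LN D) {g : A} (h : g ∣ D g) : D g = 0 := by
  obtain ⟨u, hu⟩ := h
  by_cases hg : g = 0
  · rw [hg, map_zero]
  by_cases hu0 : u = 0
  · rw [hu, hu0, mul_zero]
  exfalso
  obtain ⟨n, hn, hn'⟩ := exists_deg D hD g hg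
  obtain ⟨m, hm, hm'⟩ := exists_deg D hD u hu0
  have h1 := iter_mul_ne D hn hn' hm hm'
  apply h1
  rw [← hu, ← Function.iterate_succ_apply]
  exact iter_zero_of_le D (by omega) hn

end General

end Crest.Agent.SC
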